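import Vale.Agent.P082.Core
import Vale.Agent.P082.Scope.Defs
import Vale.Agent.P082.Central.Defs

/-!
# P082 for every von Neumann algebra: interfaces (notes/P082/EVERY_M_helper9.md)
-/

namespace Vale.Agent.P082.Every

open scoped InnerProductSpace

universe u

variable {H : Type u} [NormedAddCommGroup H] [InnerProductSpace ℂ H] [CompleteSpace H]

/-- A matrix over the algebra is a contraction between finite sums of copies of the space. -/
def Contr (M : VonNeumannAlgebra H) {κ lam : Type} [Fintype κ] [Fintype lam]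
    (Z : κ → lam → Alg M) : Prop :=
  ∀ ξ : lam → H, ∑ k, ‖∑ l, ev (ξ l) (Z k l)‖ ^ 2 ≤ ∑ l, ‖ξ l‖ ^ 2

/-- `φ` is completely bounded by `C`, written with matrix coefficients. -/
def IsCB (M : VonNeumannAlgebra H) (φ : Alg M →L[ℂ] Alg M) (C : ℝ) : Prop :=
  ∀ (K L : ℕ) (Z : Fin K → Fin L → Alg M), Contr M Z → ∀ (η : Fin K → H) (ξ : Fin L → H),
    ∑ k, ‖η k‖ ^ 2 ≤ 1 → ∑ l, ‖ξ l‖ ^ 2 ≤ 1 →
      ‖∑ k, ∑ l, ⟪η k, ev (ξ l) (φ (Z k l))⟫_ℂ‖ ≤ C

/-- Two isometries in `M` with complementary ranges: `M` is properly infinite (or zero). -/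
def HasO2 (M : VonNeumannAlgebra H) : Prop :=
  ∃ s t : Alg M, star s * s = 1 ∧ star t * t = 1 ∧ s * star s + t * star t = 1

/-- Every isometry of `M` is a unitary. -/
def IsFiniteVN (M : VonNeumannAlgebra H) : Prop :=
  ∀ v : Alg M, star v * v = 1 → v * star v = 1

/-- Below every nonzero central projection there is a nonzero abelian projection. -/
def IsTypeI (M : VonNeumannAlgebra H) : Prop :=
  ∀ c ∈ M, IsStarProjection c → (∀ x ∈ M, c * x = x * c) → c ≠ 0 →
    ∃ p ∈ M, IsStarProjection p ∧ c * p = p ∧ p ≠ 0 ∧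
      ∀ x ∈ M, ∀ y ∈ M, (p * x * p) * (p * y * p) = (p * y * p) * (p * x * p)

/-- (A) A projection of the completely bounded maps of any algebra onto left multiplications. -/
def StmtA.{v} : Prop :=
  ∀ (H : Type v) [NormedAddCommGroup H] [InnerProductSpace ℂ H] [CompleteSpace H]
    (M : VonNeumannAlgebra H),
    ∃ Φ : (Alg M →L[ℂ] Alg M) →ₗ[ℂ] Alg M,
      (∀ φ C, IsCB M φ C → ‖Φ φ‖ ≤ C) ∧
      (∀ c φ C, IsCB M φ C → Φ ((ContinuousLinearMap.mul ℂ (Alg M) c).comp φ) = c * Φ φ) ∧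
      (∀ v φ C, IsCB M φ C → Φ (φ.comp (ContinuousLinearMap.mul ℂ (Alg M) v)) = Φ φ * v) ∧
      ∀ c, Φ (ContinuousLinearMap.mul ℂ (Alg M) c) = c

/-- (B) Properly infinite algebras, from (A). -/
def StmtB.{v} : Prop :=
  StmtA.{v} → ∀ (H : Type v) [NormedAddCommGroup H] [InnerProductSpace ℂ H] [CompleteSpace H]
    (M : VonNeumannAlgebra H), HasO2 M → ∀ n, Vanishes M n

/-- (C1) Every algebra is a properly infinite part plus a finite part. -/
def StmtC1.{v} : Prop :=
  ∀ (H : Type v) [NormedAddCommGroup H] [InnerProductSpace ℂ H] [CompleteSpace H]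
    (M : VonNeumannAlgebra H),
    ∃ z ∈ M, IsStarProjection z ∧ (∀ x ∈ M, z * x = x * z) ∧
      (∃ s ∈ M, ∃ t ∈ M, star s * s = z ∧ star t * t = z ∧ s * star s + t * star t = z) ∧
      ∀ v ∈ M, star v * v = 1 - z → v * star v = 1 - z

/-- (C2) A finite algebra has separating normal traces. -/
def StmtC2.{v} : Prop :=
  ∀ (H : Type v) [NormedAddCommGroup H] [InnerProductSpace ℂ H] [CompleteSpace H]
    (M : VonNeumannAlgebra H), IsFiniteVN M → Scope.HasNormalTraces M

/-- (D) Finite algebras of type I. -/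
def StmtD.{v} : Prop :=
  ∀ (H : Type v) [NormedAddCommGroup H] [InnerProductSpace ℂ H] [CompleteSpace H]
    (M : VonNeumannAlgebra H), Scope.HasNormalTraces M → IsTypeI M → ∀ n, Vanishes M n

/-- The target. -/
def StmtEvery.{v} : Prop :=
  ∀ (H : Type v) [NormedAddCommGroup H] [InnerProductSpace ℂ H] [CompleteSpace H]
    (M : VonNeumannAlgebra H), ∀ n, Vanishes M n

end Vale.Agent.P082.Every
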