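import Vale.Agent.P082.Every.Glue
import Vale.Agent.P082.Bridge

/-!
# P082: every von Neumann algebra, in the vocabulary of the statement
-/

namespace Vale.Agent.P082.Every

universe u

/-- The modules give the Kadison-Ringrose conjecture for every algebra. -/
theorem cohomologyVanishes_every (hA : StmtA.{u}) (hB : StmtB.{u}) (hC2 : StmtC2.{u})
    (hD : StmtD.{u}) (H : Type u) [NormedAddCommGroup H] [InnerProductSpace ℂ H] [CompleteSpace H]
    (M : VonNeumannAlgebra H) : Statement.CohomologyVanishes M :=
  cohomologyVanishes_of (Glue.stmtEvery_of hA hB hC2 hD H M)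

end Vale.Agent.P082.Every
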