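import Vale.Agent.P082.Assembly
import Vale.Agent.P082.Val.Main
import Vale.Agent.P082.Central.Main
import Vale.Agent.P082.Central.Exists
import Vale.Agent.P082.Every.C1.Main

/-!
# P082: every von Neumann algebra, from the modules
-/

namespace Vale.Agent.P082.Every.Glue

open Central C1

universe u

variable {H : Type u} [NormedAddCommGroup H] [InnerProductSpace ℂ H] [CompleteSpace H]
variable {M : VonNeumannAlgebra H} {z : H →L[ℂ] H}

theorem restr_self (hz : IsStarProjection z) : restr hz z = 1 :=
  ContinuousLinearMap.ext fun v => Subtype.ext <| by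
    rw [coe_restr_apply, apply_apply hz, apply_coe]
    rfl

theorem restr_zero (hz : IsStarProjection z) : restr hz 0 = 0 :=
  ContinuousLinearMap.ext fun v => Subtype.ext (by simp [coe_restr_apply])

theorem ext_one (hz : IsStarProjection z) : ext hz 1 = z :=
  ContinuousLinearMap.ext fun _ => rfl

/-- A vanishing corner takes its share of a cocycle away. -/
theorem exists_part (h : IsCentralProj M z) {n : ℕ} (hV : Vanishes (cAlg h.proj M) n)
    (f : Cochain M (n + 1)) (hf : ∀ a, hochDiff f a = 0) :
    ∃ g : Cochain M n, ∀ a, (⟨z, h.mem⟩ : Alg M) * f (fun i => (⟨z, h.mem⟩ : Alg M) * a i) =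
      hochDiff g a := by
  let dL : Alg M →ₗ[ℂ] Alg (cAlg h.proj M) :=
    { toFun := fun x => ⟨restr h.proj x.1, restr_mem h.proj h.mem h.comm x.2⟩
      map_add' := fun x y => Subtype.ext (restr_add h.proj x.1 y.1)
      map_smul' := fun c x => Subtype.ext (restr_smul h.proj c x.1) }
  let uL : Alg (cAlg h.proj M) →ₗ[ℂ] Alg M :=
    { toFun := fun T => ⟨ext h.proj T.1, ext_mem h.proj h.mem T.2⟩
      map_add' := fun S T => Subtype.ext (ext_add h.proj S.1 T.1)
      map_smul' := fun c T => Subtype.ext (ext_smul h.proj c T.1) }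
  exact exists_corner_part
    (dL.mkContinuous 1 fun x => (norm_restr_le h.proj x.1).trans_eq (one_mul ‖x.1‖).symm)
    (uL.mkContinuous 1 fun T => (norm_ext_le h.proj T.1).trans_eq (one_mul ‖T.1‖).symm)
    (fun x y => Subtype.ext (restr_mul h.proj (h.comm _ x.2) _))
    (fun S T => Subtype.ext (ext_mul h.proj _ _))
    (fun T => Subtype.ext (restr_ext h.proj _)) ⟨z, h.mem⟩
    (fun x => Subtype.ext (ext_restr h.proj (h.comm _ x.2)))
    (fun T => Subtype.ext (mul_ext h.proj _)) (fun x => Subtype.ext (h.comm _ x.2)) hV f hf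

theorem isCentralProj_one_sub (h : IsCentralProj M z) : IsCentralProj M (1 - z) where
  mem := sub_mem (one_mem M) h.mem
  proj := h.proj.one_sub
  comm x hx := by rw [sub_mul, mul_sub, one_mul, mul_one, h.comm x hx]

/-- Two central corners with vanishing cohomology suffice. -/
theorem vanishes_of_corners (h : IsCentralProj M z) {n : ℕ} (h1 : Vanishes (cAlg h.proj M) n)
    (h2 : Vanishes (cAlg (isCentralProj_one_sub h).proj M) n) : Vanishes M n := by
  intro f hf
  obtain ⟨g, hg⟩ := exists_part h h1 f hf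
  obtain ⟨g', hg'⟩ := exists_part (isCentralProj_one_sub h) h2 f hf
  set p : Alg M := ⟨z, h.mem⟩
  set q : Alg M := ⟨1 - z, (isCentralProj_one_sub h).mem⟩
  have hq : q = 1 - p := rfl
  obtain ⟨k, hk⟩ := exists_homotopy f hf p (Subtype.ext h.proj.isIdempotentElem.eq)
    fun x => Subtype.ext (h.comm _ x.2)
  obtain ⟨k', hk'⟩ := exists_homotopy f hf q
    (Subtype.ext (isCentralProj_one_sub h).proj.isIdempotentElem.eq)
    fun x => Subtype.ext ((isCentralProj_one_sub h).comm _ x.2)
  refine ⟨g + k + g' + k', fun a => ?_⟩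
  rw [hochDiff_add, hochDiff_add, hochDiff_add, ← hg, ← hk, ← hg', ← hk', hq]
  simp only [sub_mul, one_mul]
  abel

theorem hasNormalTraces_corner (h : IsCentralProj M z) (hT : ∀ y ∈ M, z * y = y → y ≠ 0 →
    ∃ ξ : ℕ → H, Summable (fun n => ‖ξ n‖ ^ 2) ∧
      (∀ x ∈ M, ∑' n, ‖star x (ξ n)‖ ^ 2 = ∑' n, ‖x (ξ n)‖ ^ 2) ∧ ∃ n, y (ξ n) ≠ 0) :
    Scope.HasNormalTraces (cAlg h.proj M) := by
  intro T hT' hT0
  have hne : ext h.proj T ≠ 0 := fun h0 =>
    hT0 (by rw [← restr_ext h.proj T, h0, restr_zero])
  obtain ⟨ξ, hs, htr, n, hn⟩ := hT _ (ext_mem h.proj h.mem hT') (mul_ext h.proj T) hne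
  refine ⟨fun n => toC h.proj (ξ n), ?_, fun X hX => ?_, n, fun h0 => hn ?_⟩
  · exact hs.of_nonneg_of_le (fun n => sq_nonneg _)
      fun n => pow_le_pow_left₀ (norm_nonneg _) (norm_toC_le h.proj _) 2
  · have := htr _ (ext_mem h.proj h.mem hX)
    rw [star_ext h.proj] at this
    exact this
  · rw [ext_apply, h0]
    rfl

/-- Outside the largest type II₁ summand a finite algebra has type I. -/
theorem isTypeI_corner (hT : Scope.HasNormalTraces M) (h : IsTypeIIOneSummand M z)
    (hmax : ∀ w, IsTypeIIOneSummand M w → w * z = w)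
    (hq : IsCentralProj M (1 - z)) : IsTypeI (cAlg hq.proj M) := by
  intro c hcN hcp hcc hc0
  by_contra hcon
  push Not at hcon
  set C := ext hq.proj c with hC
  have hCM : C ∈ M := ext_mem hq.proj hq.mem hcN
  have hqC : (1 - z) * C = C := mul_ext hq.proj c
  have hCc : ∀ x ∈ M, C * x = x * C := fun x hx => by
    have e : ext hq.proj (restr hq.proj x) = (1 - z) * x := ext_restr hq.proj (hq.comm x hx)
    have h1 := congrArg (ext hq.proj) (hcc _ (restr_mem hq.proj hq.mem hq.comm hx))
    rw [ext_mul, ext_mul, e, ← hC, ← mul_assoc, ← hq.comm C hCM, hqC, hq.comm x hx, mul_assoc,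
      hqC] at h1
    exact h1
  have hCp : IsStarProjection C :=
    ⟨by rw [IsIdempotentElem, hC, ← ext_mul, hcp.isIdempotentElem.eq],
      by rw [IsSelfAdjoint, hC, star_ext, hcp.isSelfAdjoint.star_eq]⟩
  have hS : IsTypeIIOneSummand M C :=
    { mem := hCM
      proj := hCp
      central := hCc
      traces := fun y hy _ hy0 => hT y hy hy0
      noAbelian := fun p hp hpp hCpp hp0 => by
        have hqp : (1 - z) * p = p := by rw [← hCpp, ← mul_assoc, hqC]
        have e : ext hq.proj (restr hq.proj p) = p := by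
          rw [ext_restr hq.proj (hq.comm p hp), hqp]
        have hP : IsStarProjection (restr hq.proj p) :=
          ⟨by rw [IsIdempotentElem, ← restr_mul hq.proj (hq.comm p hp), hpp.isIdempotentElem.eq],
            by rw [IsSelfAdjoint, star_restr, hpp.isSelfAdjoint.star_eq]⟩
        have hcP : c * restr hq.proj p = restr hq.proj p := by
          rw [← restr_ext hq.proj c, ← hC, ← restr_mul hq.proj (hq.comm C hCM), hCpp]
        obtain ⟨x, hx, y, hy, hxy⟩ := hcon _ (restr_mem hq.proj hq.mem hq.comm hp) hP hcP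
          fun h0 => hp0 (by rw [← e, h0]; exact ContinuousLinearMap.ext fun _ => rfl)
        refine ⟨_, ext_mem hq.proj hq.mem hx, _, ext_mem hq.proj hq.mem hy, fun he => hxy ?_⟩
        have he' := congrArg (restr hq.proj) he
        rw [← e, ← ext_mul, ← ext_mul, ← ext_mul, ← ext_mul, ← ext_mul, ← ext_mul, restr_ext,
          restr_ext] at he'
        exact he' }
  have h0 := hmax C hS
  refine hc0 ?_
  have hz0 : C * z = 0 := by
    rw [← hqC, hq.comm C hCM, mul_assoc, sub_mul, one_mul, h.proj.isIdempotentElem.eq, sub_self,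
      mul_zero]
  rw [← restr_ext hq.proj c, ← hC, ← h0, hz0, restr_zero]

/-- The glue: all modules give vanishing for every algebra. -/
theorem stmtEvery_of (hA : StmtA.{u}) (hB : StmtB.{u}) (hC2 : StmtC2.{u}) (hD : StmtD.{u}) :
    StmtEvery.{u} := by
  intro H _ _ _ M n
  obtain ⟨z, hzM, hzp, hzc, ⟨s, hsM, t, htM, hs, ht, hst⟩, hfin⟩ := stmtC1 H M
  have hz : IsCentralProj M z := ⟨hzM, hzp, hzc⟩
  have hq := isCentralProj_one_sub hz
  refine vanishes_of_corners hz (hB hA _ _ ?_ n) ?_
  · refine ⟨⟨_, restr_mem hzp hzM hzc hsM⟩, ⟨_, restr_mem hzp hzM hzc htM⟩, Subtype.ext ?_,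
      Subtype.ext ?_, Subtype.ext ?_⟩
    · show star (restr hzp s) * restr hzp s = 1
      rw [star_restr, ← restr_mul hzp (hzc _ (star_mem hsM)), hs, restr_self]
    · show star (restr hzp t) * restr hzp t = 1
      rw [star_restr, ← restr_mul hzp (hzc _ (star_mem htM)), ht, restr_self]
    · show restr hzp s * star (restr hzp s) + restr hzp t * star (restr hzp t) = 1
      rw [star_restr, star_restr, ← restr_mul hzp (hzc _ hsM), ← restr_mul hzp (hzc _ htM),
        ← restr_add, hst, restr_self]
  · set K := cSpace (1 - z)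
    set N := cAlg hq.proj M with hN
    have hfinN : IsFiniteVN N := fun v hv => by
      refine Subtype.ext ?_
      have h1 : star (ext hq.proj v.1) * ext hq.proj v.1 = 1 - z := by
        rw [star_ext, ← ext_mul, show star v.1 * v.1 = 1 from congrArg Subtype.val hv, ext_one]
      have h2 := congrArg (restr hq.proj) (hfin _ (ext_mem hq.proj hq.mem v.2) h1)
      rw [star_ext, ← ext_mul, restr_ext, restr_self] at h2
      exact h2
    have hT : Scope.HasNormalTraces N := hC2 _ N hfinN
    obtain ⟨p, hp, hmax⟩ := exists_max_summand N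
    have hpc : IsCentralProj N p := ⟨hp.mem, hp.proj, hp.central⟩
    refine vanishes_of_corners hpc
      (vanishes_of_val Val.stmtVal _ (Central.hasNormalTraces_cAlg hp)
        (Central.noAbelianProjection_cAlg hp) n)
      (hD _ _ (hasNormalTraces_corner (isCentralProj_one_sub hpc) fun y hy _ hy0 => hT y hy hy0)
        (isTypeI_corner hT hp hmax (isCentralProj_one_sub hpc)) n)

end Vale.Agent.P082.Every.Glue
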